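import Vale.Agent.P365.Bdl.B1

namespace Vale.Agent.Results.P365.LloydNoAC

open MeasureTheory ProbabilityTheory P365L

/-- Two-dimensional Anderson operator `H = hop + lam (w + kap c)` on `ℓ²(ℤ²)`, `w` iid uniform on
`[-1,1]`, `c` iid standard Cauchy, independent: for every `lam, kap > 0`, almost surely all
spectral measures are singular. (A) well-posedness of spectral measures for every real potential;
(B) arbitrary random background; (C) the Anderson case; (D) closeness of the single-site law to
the uniform law in total variation. -/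
theorem result :
    (∀ (V : Site → ℝ) (ψ : L2), ∃ μ : Measure ℝ, IsSpectralMeasure V ψ μ ∧
      μ.real Set.univ = ‖ψ‖ ^ 2) ∧
    (∀ {Ω : Type} [MeasurableSpace Ω] (P : Measure Ω) [IsProbabilityMeasure P]
      (U c : Site → Ω → ℝ), (∀ x, Measurable (U x)) → (∀ x, Measurable (c x)) →
      iIndepFun c P → (∀ x, P.map (c x) = cauchyMeasure 0 1) →
      IndepFun (fun o x => U x o) (fun o x => c x o) P → ∀ gam : ℝ, 0 < gam →
      ∀ᵐ o ∂P, ∀ (ψ : L2) (μ : Measure ℝ),
        IsSpectralMeasure (fun x => U x o + gam * c x o) ψ μ → μ ⟂ₘ volume) ∧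
    (∀ {Ω : Type} [MeasurableSpace Ω] (P : Measure Ω) [IsProbabilityMeasure P]
      (w c : Site → Ω → ℝ), (∀ x, Measurable (w x)) → (∀ x, Measurable (c x)) →
      iIndepFun w P → (∀ x, P.map (w x) = cond volume (Set.Icc (-1) 1)) →
      iIndepFun c P → (∀ x, P.map (c x) = cauchyMeasure 0 1) →
      IndepFun (fun o x => w x o) (fun o x => c x o) P →
      ∀ lam : ℝ, 0 < lam → ∀ kap : ℝ, 0 < kap →
      ∀ᵐ o ∂P, ∀ (ψ : L2) (μ : Measure ℝ),
        IsSpectralMeasure (fun x => lam * (w x o + kap * c x o)) ψ μ → μ ⟂ₘ volume) ∧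
    (∀ eps : ℝ, 0 < eps → ∃ kap₀ : ℝ, 0 < kap₀ ∧
      ∀ {Ω : Type} [MeasurableSpace Ω] (P : Measure Ω) [IsProbabilityMeasure P] (w c : Ω → ℝ),
      Measurable w → Measurable c → IndepFun w c P → P.map w = cond volume (Set.Icc (-1) 1) →
      P.map c = cauchyMeasure 0 1 → ∀ kap : ℝ, 0 < kap → kap ≤ kap₀ →
      ∀ B : Set ℝ, MeasurableSet B →
        |P.real {o | w o + kap * c o ∈ B} - (cond volume (Set.Icc (-1 : ℝ) 1)).real B| ≤ eps) := by
  refine ⟨exists_spectralMeasure, ?_, ?_, ?_⟩
  · intro Ω _ P _ U c hU hc hci hcl hUc gam hgam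
    exact no_ac hgam U c hU hc hci hcl hUc
  · intro Ω _ P _ w c hw hc hwi hwl hci hcl hwc lam hlam kap hkap
    have h1 : IndepFun (fun o x => lam * w x o) (fun o x => c x o) P := by
      have h2 : Measurable fun (v : Site → ℝ) (x : Site) => lam * v x :=
        measurable_pi_lambda _ fun x =>
          (show Measurable fun v : Site → ℝ => v x from measurable_pi_apply x).const_mul lam
      exact hwc.comp h2 measurable_id
    have h3 := no_ac (mul_pos hlam hkap) (fun x o => lam * w x o) c
      (fun x => (hw x).const_mul lam) hc hci hcl h1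
    filter_upwards [h3] with o ho ψ μ hμ
    refine ho ψ μ ?_
    have h4 : (fun y => lam * w y o + lam * kap * c y o) = fun x => lam * (w x o + kap * c x o) := by
      funext y; ring
    rw [h4]
    exact hμ
  · intro eps heps
    obtain ⟨k, hk, H⟩ := tv_close heps
    refine ⟨k, hk, ?_⟩
    intro Ω _ P _ w c hw hc hi hwl hcl kap h1 h2 B hB
    exact H P w c hw hc hi hwl hcl kap h1 h2 B hB

end Vale.Agent.Results.P365.LloydNoAC
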